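import Crest.Agent.X212.Nk54.End
import Crest.Agent.X212.Nt66.Defs
import Crest.Agent.X212.Spl54.Ch
import Crest.Agent.X212.Sym93.Trp
import Crest.Agent.X212.Lns95.Van

/-!
# Row 212, NT-KER (helper54), file 5: the leaf `Nt66.Ker`
-/

set_option autoImplicit false
set_option linter.unusedSectionVars false
noncomputable section
open scoped Manifold ContDiff Topology
open MeasureTheory Set Function Filter

namespace Crest.Agent.X212.Nk54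
open An M Nd18 Mod61 Nk89 Cht98 Rf65 Rdc90 Pte3 Eqv71 Wrd81 Spl54 Nt66 Prm93
open An.Job (isClopen_un)

section job
variable {Wi : Type} {X : Mf 4} {A κ lam : Type} [Fintype A] [Fintype κ] [Fintype lam]
  [DecidableEq lam] {M : Mark X A κ} {W : World M} {N : ML M lam} {Λ : Lns W N}
  {A' h : Type} [Fintype A'] [DecidableEq A'] [Fintype h] {r n : ℕ}
  {J : Job Wi Λ A' h r n} {c : M.Cl} {σ : Cel A'} {δ : ℝ}
  {p : Prt A A' h} {U : Type} [Fintype U] {b : Bp J c} {E : EC b p U δ} {y : J.Obc c}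
  {x : Pnt E.o r} {ψ : E.K} {δ₀ : ℝ} {μ : Ed c → Option U} {P : Set (Reg A)}
  (H : CS σ E) (hy : J.Ov σ c y.s) (ch : E.Ch δ₀ σ μ y x ψ)
include H hy ch

/-- the slice of a chart at the point is equivalent to the limit -/
theorem eqv_ch {i : Ed c} (hi : i ∈ EdP c p.P) :
    (J.xs i.1).D.Eqv ((en E i).sl E.o (E.R + 1) x.t) (y.β i.1 i.2) := by
  have eo := ch.ok
  have bs := ch.go.bs i hi
  obtain ⟨u, ζ, e⟩ := ceq0 H.toPG hy ch
  have h1 := H.ok.act_end H.mem hy (Add46.act b i)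
  have h2 := H.ok.act_end H.mem (H.ovx x) (Add46.act b i)
  have g := kt H.toPG hy ch
  have a := ad0_of ch.go.adm
  have a' := (x0 x).ad0 H.F
  obtain ⟨d, k1, k2⟩ := ch.go.lim i hi h1
  have L := fun l (L : (J.K c i.1 _ _ h1).Lim y.x.con (y.β i.1 i.2) 1 l) =>
    (H.ok.end_eq h2 (Add46.act b i)).lim ((H.ok.end_eq h1 h2).lim_pre g.hB g.hG'
      (H.pok.agr H.ok H.mem hy (H.ovx x) (θ_eq ch.rep.s)) H.cl
      (H.ok.end_sub h1 H.pok.pc hi) bs.adm a' a (ceq_symm2 g.toLG H.cl.2 a a' e) L)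
  refine Add46.eqv_lim H.ee H.lit (a := i) ((H.act_iff _ _).2 hi) (y := x0 x) a'.adm0
    ⟨_, _, ceq_refl H.F.B (H.F.G _ x.ht) a' H.cl.2⟩ bs.adm (L _ (Add46.elim_lim (b := !i.2)
      (eo.d0.trans k1) ?_))
  obtain ⟨_, _ | _⟩ := i
  exacts [k2, k2]

/-- **two deformations that break the reduction** -/
theorem ker_ch {i : cylW c} (hi : (i, false) ∈ EdP c p.P) (h1 : P ⊆ p.P) (h2 : P ⊆ p.P')
    {ha : Act J.m c i.1 (some false) (J.Θ (b.θ p U x.t))}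
    (k : Dfl49.One (J.K c i.1 _ _ ha) 1 0 (W.un c P)) (sc : SC (W.un c P))
    (hz : dz (J.xs i.1).D (y.β i.1 false) = 1) {d : ℤ} (hd : 2 ≤ d) {m : ℕ}
    (ix : Idx 8 ((b.F (sp p P ∅ ∅) U δ).eq0 r n m) (rx H x h1 (empty_subset _) ∅) d)
    {ξ : (W.Z c).M → E.o.m.A}
    (rd : Abel74.RedOn (J.G c (b.θ p U x.t)).F E.o.m x.cfg.W (W.un c P) ξ)
    {g : (rf E x.t P P ∅).C r 8 → (rf E x.t P P ∅).Y n m 8}
    (hg : RepF ((b.F (sp p P P ∅) U δ).eq0 r n m) g) :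
    ∃ a : (Fin 2 → ℝ) →ₗ[ℝ] (W.Z c).M → Fm (Option κ) E.o.m.A, ∀ s,
      a s ∈ Mod61.Hs (b.F p U δ).F0.toPre (rf E x.t P P ∅).P1 ∧
      (fderiv ℝ g ((rx H x h1 h2 ∅).pt 8) (ofV _ 9 _ (a s), 0, 0)).2.1 = 0 ∧
      (s ≠ 0 → NG (J.G c (b.θ p U x.t)).F x.cfg (W.un c P) ξ
        fun z => idx ((b.F p U δ).S x.t z) (.id ℝ _) (a s z)) := by
  have ok : ∀ P' ⊆ P, (b.F (sp p P P' ∅) U δ).OK := fun P' j => (jEnds H.ok b.br b.O (sm_θ b)
    (isClopen_un fun π e => H.pok.pc π (h1 e)) (isClopen_un fun π e => H.pok.pc π (h1 (j e)))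
    (biUnion_subset_biUnion_left j) H.eo.d0 H.eo.d1).ok
  have e : ∀ {P'} (j : P' ⊆ p.P'), ∀ w ∈ W.un c P, ∀ a,
      (rx H x h1 j ∅).cfg.W a w = x.cfg.W a w := fun {P'} _ w hw a => by
    refine congrArg₂ (· + ·) ?_ (congrArg (fun v => opL (idx _ _ v a)) (indicator_of_mem hw _))
    rw [(rf E x.t P P' ∅).A_eq]
    rfl
  have bs := ch.go.bs _ hi
  have ad := (H.eo.lit (i, false)).adm H.F (H.ee.okP _) H.eo.R5 x.ht
  have q := eqv_ch H hy ch hi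
  have := J.conn_xs i.1
  obtain ⟨a, l⟩ := ker_fam (ok ∅ (empty_subset _)) _ (biUnion_empty _) ix hd
  refine ⟨a, fun s => ?_⟩
  obtain ⟨m1, α, m2, e1, c1, z⟩ := l s
  have t := (Grp76.hs_iff (ok ∅ (empty_subset _))).1 m2
  have p2 : ∀ w ∈ W.un c P, Cv (J.B c) (J.G c (b.θ p U x.t)).F E.o.m x.cfg.W α w ∧
      Rw (Fs (b.F (sp p P ∅ ∅) U δ) x.t) E.o.m x.cfg.W α w := fun w hw =>
    have k a := (e (empty_subset _) w hw a).symm
    ⟨Cv.congr (W := (rx H x h1 (empty_subset _) ∅).cfg.W) (c1 w hw).1 k,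
      Rw.congr (W := (rx H x h1 (empty_subset _) ∅).cfg.W) (c1 w hw).2 k⟩
  refine ⟨m1, crv_fam (ok P Subset.rfl) (rx H x h1 h2 ∅) hg m1 fun w hw => ?_,
    fun s0 ⟨η, hη⟩ => s0 (z (ng_end H.ee (i := (i, false)) (η := η)
      (F := Fs (b.F (sp p P ∅ ∅) U δ) x.t) H.lit x rfl
      (Add46.flt_eqv bs.ok bs.adm ad (Add46.eqv_symm bs.ok ad bs.adm q) bs.flat)
      ((Sym93.dz_eqv bs.ok ad bs.adm q).trans hz) (H.ok.end_eq (Add46.act b (i, false)) ha) k sc.2 rd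
      t.1 (fun w hw => (congrArg (fun q => idx (fun a b => (J.B c).P a b w) q (α w))
        (indicator_of_mem hw E.o.m.pg)).symm.trans (t.2 w)) rfl p2
      fun w hw => ⟨(hη w hw).1, (hη w hw).2.1, ?_⟩))⟩
  · subst e1
    exact Cv.congr (W := x.cfg.W) (W' := (rx H x h1 h2 ∅).cfg.W) (p2 w hw).1 (e h2 w hw)
  · exact e1 ▸ (hη w hw).2.2.2

end job

section scene
open G75 Ins26
variable {κ lam : Type} [Fintype κ] [Fintype lam] [DecidableEq lam] {Lm : LM κ lam}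

/-- **NT-KER** -/
theorem ker (hG : Lns95.GeoStmt Lm) : NfStmt Lm Ker :=
  fun S D i _ _ _ J _ _ _ _ _ c G _ _ => ⟨1, one_pos, fun δ _ => .of fun _ σ q y l b E x ψ C =>
    fun ix hd hz ξ ab g hg => by
    let j : cylW c := ⟨l.1, C.fa.1.2.1.ge rfl, C.fa.1.2.2.1⟩
    have ha := G.ok.act_end C.cs.mem (C.cs.ovx x) (Add46.act b (j, false))
    obtain ⟨⟨w, s⟩, -⟩ := hG S D i l J.m c _ _ _ _ _ G.sc C.fa.1.2.1 ha (G.ok.xs l).1
      (G.ok.nk _ _ _ _ ha)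
    have e : Nt66.Om D c l = Lns95.Om D c l := (An.un_one _ _ _).trans
      (Lns95.pc_in G.sc l.2 (if_pos rfl) (C.cs.pok.pc _ (.inr rfl)).toIsReg _ c)
    rw [← e] at s
    rw [← C.θ] at ab ⊢
    exact ker_ch C.cs (C.θ ▸ C.cs.ovx x) C.gd.ch (i := j) ⟨_, .inr rfl, if_pos rfl⟩ sub_in sub_in
      (ha := ha) s.1.one s.1.sc hz hd ix.2.1 ab.rd.toRedOn hg⟩

end scene
end Crest.Agent.X212.Nk54
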