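import Crest.Agent.X212.Nat27.Ix
import Crest.Agent.X212.Dfl49.Reg
import Crest.Agent.X212.Wz78.Boch
import Crest.Agent.X212.Mod61.Hs

/-!
# Row 212, NT-KER (helper54), file 3: the kernel of the gauge fixed linearisation without spinors
-/

set_option autoImplicit false
set_option linter.unusedSectionVars false
noncomputable section
open scoped Manifold ContDiff Topology InnerProductSpace
open MeasureTheory Set Function Filter

namespace Crest.Agent.X212.Nk54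
open An An.Pre Sob92 Prm93 Fred93 Mod61 Map77 Nk89 Wz78 Rdc90 Dfl49

variable {E : Type} [NormedAddCommGroup E] [NormedSpace ℝ E] [FiniteDimensional ℝ E]
  [MeasurableSpace E] [BorelSpace E]
  {HM : Type} [TopologicalSpace HM] {I : ModelWithCorners ℝ E HM} [I.Boundaryless]
  {M : Type} [TopologicalSpace M] [ChartedSpace HM M] [IsManifold I ∞ M]
  [MeasurableSpace M] [T2Space M] [BorelSpace M] [SecondCountableTopology M] {ι : Type} [Fintype ι]
  {lam : Type} [Fintype lam] {T : Type} [NormedAddCommGroup T] [NormedSpace ℝ T]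
  {𝔉 : Fam I M ι lam T} {o : Ref 𝔉} {r n m : ℕ} {d : ℤ}

/-- the linearised curvature equation -/
def Cv (B : Base M ι lam) (F : Fr I M ι) (m : Md M ι lam) (W : m.Cn) (α : M → Fm ι m.A) (x : M) :
    Prop :=
  m.p2 B x (WithLp.toLp 2 fun s => ed I F.e F.c (m.adW W) (fun a y => α y a) s.1 s.2 x) = 0

/-- the gauge condition -/
def Rw (F : Fr I M ι) (m : Md M ι lam) (W : m.Cn) (α : M → Fm ι m.A) (x : M) : Prop :=
  dv1 I F.e F.dv (m.adW W) (fun a y => α y a) x = 0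

theorem Cv.congr {B : Base M ι lam} {F : Fr I M ι} {m : Md M ι lam} {W W' : m.Cn}
    {α : M → Fm ι m.A} {x : M} (h : Cv B F m W α x) (e : ∀ a, W' a x = W a x) : Cv B F m W' α x := by
  simpa only [Cv, ed, nab, Md.adW, e] using h

theorem Rw.congr {F : Fr I M ι} {m : Md M ι lam} {W W' : m.Cn}
    {α : M → Fm ι m.A} {x : M} (h : Rw F m W α x) (e : ∀ a, W' a x = W a x) : Rw F m W' α x := by
  simpa only [Rw, dv1, nab, Md.adW, e] using h

theorem cp_rows {κ : Type} [Fintype κ] [DecidableEq κ] {d : Bd M ι κ} {F : Fr I M ι}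
    {Γ : ι → ι → ι → M → ℝ} {W : ι → M → En κ} (cp : Cp d F Γ W) (Φ : M → Eu κ) {u : M → Cf ι κ}
    {x : M} (su : SA I u x) (pu : ∀ x, d.pC x (u x) = u x) (z : fp (u x) = 0) :
    f2 _ _ ((d.full F (base W Φ)).app F u x) = dv1 I F.e F.dv (adw W) (fun a y => fa (u y) a) x ∧
    s2 _ _ (s2 _ _ ((d.full F (base W Φ)).app F u x)) =
      d.p2 x (WithLp.toLp 2 fun s => ed I F.e F.c (adw W) (fun a y => fa (u y) a) s.1 s.2 x) := by
  have p1 := cp.P_fa (pu x)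
  rw [cp.full_row su pu, cp.full_crv su pu]
  constructor
  · have := cp.lc.div_sum (frm _) (g := fun k x => ∑ a, Γ a k a x) (fun _ => rfl) p1
    simp only [z, rk1, ContinuousLinearMap.smulRight_zero, map_zero, add_zero, cov, dft, dv1,
      Finset.sum_sub_distrib, Finset.sum_add_distrib, sub_smul, this]
    abel
  · simp [ed_cov (α := fun a y => fa (u y) a) cp.lc p1, z, rk1]

variable (h : 𝔉.OK) (y : Pnt o r)
include h

theorem cp_fs : Cp (bd o) (Fs 𝔉 y.t) (𝔉.G y.t).F.Gam y.cfg.W :=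
  let C := (cp_of h.B (h.G _ y.ht) o.ok (y.ad0 h).conn).ind h.Om h.Om'
  ⟨C.ok, C.P, C.lc, C.so, C.sρ, C.sg, C.ssp, C.ssm, C.con, C.sk, C.g, C.sp, C.sm, C.ρ⟩

/-- the rows of the gauge fixed linearisation on forms -/
theorem rows {v : 𝔉.F0.H 9 (bd o).pC} {u : M → Cf ι (Fin o.m.N)} (e : 𝔉.F0.val 9 _ v = u)
    (hu : u ∈ Mod61.Hs 𝔉.F0.toPre (bd o).pC) (z : ∀ x, fp (u x) = 0) (x : M) :
    f2 _ _ (𝔉.F0.val 8 _ ((bd o).FF 𝔉.F0.toPre (Fs 𝔉 y.t) 8 (uy y) v) x) =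
      dv1 I (Fs 𝔉 y.t).e (Fs 𝔉 y.t).dv (o.m.adW y.cfg.W) (fun a y => fa (u y) a) x ∧
    s2 _ _ (s2 _ _ (𝔉.F0.val 8 _ ((bd o).FF 𝔉.F0.toPre (Fs 𝔉 y.t) 8 (uy y) v) x)) =
      o.P2 x (WithLp.toLp 2 fun s => ed I (𝔉.G y.t).F.e (𝔉.G y.t).F.c (o.m.adW y.cfg.W)
        (fun a y => fa (u y) a) s.1 s.2 x) := by
  have Hy := (adj_rem h).hy o y.ht
  have hS := sup0 h
  have k : 𝔉.F0.val 8 _ ((bd o).FF 𝔉.F0.toPre (Fs 𝔉 y.t) 8 (uy y) v) x =
      ((bd o).full (Fs 𝔉 y.t) (uy y)).app (Fs 𝔉 y.t) u x :=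
    e ▸ congrFun (Hy.toTw.val (Hy.nc_full (cb_uy h y)) (k := 8) (by norm_num) v) x
  rw [k]
  exact cp_rows (cp_fs h y) _ (Grp76.cb_sm (Hs_cb hS hu) x) (Hs_proj hS hu) (z x)

/-- **the curvature row at a form** -/
theorem crv_fam {g : o.C r 8 → o.Y n m 8} (hg : RepF (𝔉.eq0 r n m) g) {a : M → Fm ι o.m.A}
    (ha : a ∈ Mod61.Hs 𝔉.F0.toPre o.P1) (c : ∀ x ∈ 𝔉.Om, Cv 𝔉.B (𝔉.G y.t).F o.m y.cfg.W
      (fun z => idx (𝔉.S y.t z) (.id ℝ _) (a z)) x) :
    (fderiv ℝ g (y.pt 8) (ofV _ 9 _ a, 0, 0)).2.1 = 0 := by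
  have hS := sup0 h
  set v : o.C r 8 := (ofV _ 9 _ a, 0, 0) with hv
  have e1 : sC' o r 8 y.t (sC o r 8 y.t v) = v := sC_inj h y.ht (sC_sC' h y.ht _) rfl
  have e2 : 𝔉.F0.val 9 _ (sC o r 8 y.t v) = fun x => SC o (𝔉.S y.t) x (i1 _ _ (a x)) :=
    funext fun x => (val_SH h (by norm_num) y.ht _ x).trans (congrArg _
      ((val_jC h (by norm_num) v x).trans (by rw [hv, val_ofV ha (by norm_num), val_zero]; simp)))
  have hu := Hs_mul hS ((sb_SC o h.sS).cb _ y.ht) (maps_SC o h (h.PS _ y.ht))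
    (Hs_mul hS (Cb_const _) (maps_i1 (q := o.Pp)) ha)
  refine val_injective hS (by norm_num) (funext fun x => ?_)
  have k := (rows h y e2 hu (fun x => by simp [SC]) x).2
  rw [← Nat27.TT_eq h (by norm_num) hg y] at k
  simp only [TG, _root_.add_apply, ContinuousLinearMap.comp_apply, e1, val_add, Pi.add_apply,
    val_iH1 hS (by norm_num : 4 ≤ 8), val_iH2 hS (by norm_num : 4 ≤ 8), sY_apply, map_add, s2_i1,
    s2_i2, zero_add, SC, f2_sm2, f2_i1] at k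
  rw [k, val_zero]
  by_cases hx : x ∈ 𝔉.Om
  · simpa only [Ref.P2, Ref.Pg, indicator_of_mem hx] using! c x hx
  · exact fm_ext fun s => by simp [Ref.P2, Ref.Pg, hx]

/-- **two dimensional kernels** -/
theorem ker_fam (h0 : 𝔉.Om' = ∅) (H : Idx 8 (𝔉.eq0 r n m) y d) (hd : 2 ≤ d) :
    ∃ a : (Fin 2 → ℝ) →ₗ[ℝ] M → Fm ι o.m.A, ∀ s, a s ∈ Mod61.Hs 𝔉.F0.toPre o.P1 ∧
      ∃ α ∈ Mod61.Hs 𝔉.F0.toPre o.P1, (fun z => idx (𝔉.S y.t z) (.id ℝ _) (a s z)) = α ∧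
        (∀ x ∈ 𝔉.Om, Cv 𝔉.B (𝔉.G y.t).F o.m y.cfg.W α x ∧ Rw (Fs 𝔉 y.t) o.m y.cfg.W α x) ∧
        ((∀ x ∈ 𝔉.Om, α x = 0) → s = 0) := by
  have hS := sup0 h
  have Hy := (adj_rem h).hy o y.ht
  have F := Nat27.idx_ff h (by norm_num) H
  obtain ⟨f, hf⟩ := exists_linearIndependent_of_le_finrank (R := ℝ) (n := 2)
    (by exact_mod_cast hd.trans F.le_finrank_ker)
  let j := (LinearMap.ker _).subtype ∘ₗ Fintype.linearCombination ℝ f
  refine ⟨⟨⟨fun s x => fa (SC o (𝔉.Si y.t) x (𝔉.F0.val 9 _ (j s) x)), fun s t => funext fun x => by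
    simp [val_add]⟩, fun c s => funext fun x => by simp [val_smul]⟩, fun s => ?_⟩
  have e : (bd o).FF 𝔉.F0.toPre (Fs 𝔉 y.t) 8 (uy y) (j s) = 0 :=
    (Fintype.linearCombination ℝ f s).2
  have hu : 𝔉.F0.val 9 _ (j s) ∈ Mod61.Hs 𝔉.F0.toPre (bd o).pC :=
    Hs_of_all hS (by norm_num) fun i hi => by
      obtain ⟨i, rfl⟩ : ∃ i', i = i' + 1 := ⟨i - 1, by omega⟩
      exact Hy.toTw.reg (Hy.nc_full (cb_uy h y)) (Hy.toOK.cliff_full Hy.P _).1 (k := 8) (by omega)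
        (w := 0) (e.trans (map_zero _).symm)
  have pu := Hs_proj hS hu
  have z : ∀ x, fp (𝔉.F0.val 9 _ (j s) x) = 0 := fun x => by
    rw [← sp_of (pu x)]; simp [Ref.Pp, h0]
  refine ⟨Hs_mul hS (Cb_const _) maps_f2 (Hs_mul hS ((sb_SC o h.sSi).cb _ y.ht)
    (maps_SC o h (h.PSi _ y.ht)) hu), _, Hs_mul hS (Cb_const _) maps_f2 hu, funext fun x =>
      (f2_sm2 _ _ _).symm.trans (congrArg _ (SC_SC o h (h.SSi _ y.ht) x _ (pu x))), fun x hx => ?_,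
    fun k => ?_⟩
  · obtain ⟨k1, k2⟩ := rows h y rfl hu z x
    rw [e, val_zero] at k1 k2
    exact ⟨by simpa only [Ref.P2, Ref.Pg, indicator_of_mem hx] using! k2.symm, k1.symm⟩
  · refine linearIndependent_iff_injective_fintypeLinearCombination.1 hf (Subtype.ext
      (val_injective hS (k := 9) (by norm_num) (funext fun x => ext2 ?_ ?_)))
    · simp only [map_zero, ZeroMemClass.coe_zero, val_zero, Pi.zero_apply]
      by_cases hx : x ∈ 𝔉.Om
      · exact k x hx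
      · exact (p1_of (pu x)).symm.trans (fm_ext fun a => by
          simp [Ref.P1, Ref.Pg, hx])
    · simpa only [map_zero, ZeroMemClass.coe_zero, val_zero, Pi.zero_apply] using! z x

end Crest.Agent.X212.Nk54
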