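import Crest.Agent.X212.Nk54.Geo
import Crest.Agent.X212.Nk54.Fam
import Crest.Agent.X212.End14.Bas
import Crest.Agent.X212.Nk89.Geo
import Crest.Agent.X212.Clr59.Ys
import Crest.Agent.X212.Wrd81.LocN

/-!
# Row 212, NT-KER (helper54), file 4: the vanishing theorem for a family with literal ends
-/

set_option autoImplicit false
set_option linter.unusedSectionVars false
noncomputable section
open Set Filter Topology MeasureTheory
open scoped ContDiff Manifold InnerProductSpace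

namespace Crest.Agent.X212.Nk54
open An Sob92 Wz78 Kah60 Cyf70 Nd18 Pj41 Map77 Dfl49 Mod61 Nk89

variable {E : Type} [NormedAddCommGroup E] [NormedSpace ℝ E] [FiniteDimensional ℝ E]
  [MeasurableSpace E] [BorelSpace E]
  {HM : Type} [TopologicalSpace HM] {I : ModelWithCorners ℝ E HM} [I.Boundaryless]
  {M : Type} [TopologicalSpace M] [ChartedSpace HM M] [IsManifold I ∞ M] [MeasurableSpace M]
  [T2Space M] [BorelSpace M] [SecondCountableTopology M]
  {κ : Type} [Fintype κ] {lam : Type} [Fintype lam]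

theorem flt_of {B : Base M (Option κ) lam} {G : Geo I M (Option κ) lam} {m : Md M (Option κ) lam}
    {W : m.Cn} {S : Set M} (hB : B.OK I) (hG : G.OK B) (H : m.OK I B) (c : m.IsConn B G W)
    (hS : IsOpen S) (fl : ∀ x, m.Fg G.F W x = 0) : Flt G.F S (m.adW W) m.pg :=
  have sg := Std94.sm_pg hB H
  have cn : Con I G.F.P (m.adW W) := hG.P ▸ con_adW c
  ⟨hS, fun a x _ => cn.sm a x, fun a x _ => cn.proj a x, fun x _ => sg x,
    fun a x _ => by rw [pg_par H c sg, zero_mul], fun a b x _ => ContinuousLinearMap.ext fun ξ =>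
      (curv_adW_g hB hG H c a b (pg_mem x ξ)).trans (by rw [fl x]; simp [adc_apply])⟩

variable {T : Type} [NormedAddCommGroup T] [NormedSpace ℝ T] {𝔉 : Fam I M (Option κ) lam T} {δ : ℝ}

/-- **decaying gauge fixed deformations along which the reduction deforms vanish** -/
theorem ng_end (X : Ends 𝔉 δ) {i : X.A} {o : Ref 𝔉} {R : ℝ} {r : ℕ} (hl : X.Lit o R) (x : Pnt o r)
    (sg : (X.P i).sg = 1) (fl : Rdc90.Flt (X.P i).D ((X.P i).sl o (R + 1) x.t))
    (hz : Rf65.dz (X.P i).D ((X.P i).sl o (R + 1) x.t) = 1) {K : Nk (X.P i).D 𝔉.B (𝔉.G x.t)}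
    (e : Wrd81.SameN (X.P i).K K) {S : Set M} (h : One K 1 0 S) (sc : ∀ z ∈ S, Sur {z} S)
    {ξ : M → o.m.A} (rd : Abel74.RedOn (𝔉.G x.t).F o.m (o.W x.t x.α) S ξ)
    {α : M → Fm (Option κ) o.m.A} (hα : Grp76.Nice 𝔉.F0.toPre α)
    (pα : ∀ z ∈ S, o.m.p1 𝔉.B z (α z) = α z) {F : Fr I M (Option κ)} (he : F.e = (𝔉.G x.t).F.e)
    (c : ∀ z ∈ S, Cv 𝔉.B (𝔉.G x.t).F o.m (o.W x.t x.α) α z ∧ Rw F o.m (o.W x.t x.α) α z)
    {η : M → o.m.A} (hη : ∀ z ∈ S, SA I η z ∧ η z ∈ o.m.gS z ∧ ∀ a,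
      nab I (𝔉.G x.t).F.e (o.m.adW (o.W x.t x.α)) a η z + adc (opL (α z a)) (ξ z) = 0) :
    ∀ z ∈ S, α z = 0 := by
  have P := X.okP i
  have := P.con
  have A := (hl.lit i).adm X.ok P hl.le x.ht
  have a := x.ad0 X.ok
  have h' := one_mono h (X.R0.le.trans hl.le)
  obtain ⟨v, v0, hv⟩ := finrank_eq_one_iff'.1 (Clr59.dz_def.symm.trans hz)
  have : Nonempty (X.P i).Y.M := by_contra fun k => v0 (Subtype.ext (funext fun y => (k ⟨y⟩).elim))
  have d : ∀ {u : M → Fm (Option κ) o.m.A}, Grp76.Nice 𝔉.F0.toPre u → ∃ C, Dcy K 1 R δ C u :=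
    fun hu => (End14.decay X hu).imp fun C hC w hw => by
      have tg : w ∈ (X.P i).K.ψ.target := e.tgt ▸ K.tgt ▸ h'.J hw
      rw [e.tm tg, ← sg] at hw ⊢
      simpa only [P.wt w ⟨tg, hl.le.trans_lt hw⟩, neg_mul] using hC w
  have hH : ∀ z ∈ (univ : Set (X.P i).Y.M) ×ˢ Ioi R, z ∈ (X.P i).H R := fun z hz => by
    simpa [End.H, sg] using hz
  have hψ : ∀ z ∈ (univ : Set (X.P i).Y.M) ×ˢ Ioi R, K.ψ z = (X.P i).K.ψ z := fun z hz =>
    e.ψ (P.src (hl.le.trans (hH z hz).le))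
  obtain ⟨C, hC⟩ := d hα
  obtain ⟨C', hC'⟩ := d ((Grp76.hs_iff X.ok).1 x.hα).1
  refine geo X.ok.B (X.ok.G _ x.ht) o.ok a.conn h' (sur_end h' sc) rd
    (fun z _ => Grp76.cb_sm hα.1 z) pα X.δ0 hC
    (A := fun a z => adc (((X.P i).sl o (R + 1) x.t).W a z.1))
    (Q := fun z => ((X.P i).sl o (R + 1) x.t).m.pg z.1)
    ⟨flt_of P.D.B P.D.G A.adm.ok A.adm.conn (isOpen_univ.prod isOpen_Ioi) fl,
      fun a z => adW_skw A.adm.conn a z, fun z => by rw [A.tmp]; simp [adc],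
      fun z _ => adW_skw a.conn none _, X.δ0, ‖adcL (κ := Fin o.m.N)‖ * (‖opL (κ := Fin o.m.N)‖ * C'),
      fun b z hz => ?_⟩ (fun z hz v hv => pg_of_mem ?_) (fun s s' p p' n => ?_)
    (fun z hz => (c z hz).1) he (fun z hz => (c z hz).2) hη
  · have u := P.ψ_mem le_rfl (show z ∈ (X.P i).H X.R from hl.le.trans_lt (hH z hz))
    have k := hC' (K.ψ z)
    rw [K.tm_ψ z (e.src ▸ P.src (hl.le.trans (hH z hz).le)), one_mul] at k
    have w : o.W x.t x.α b (K.ψ z) - ((X.P i).sl o (R + 1) x.t).W b z.1 = opL (x.α (K.ψ z) b) := by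
      rw [← (((hl.lit i).at x.ht (hH z hz)).2.2.2.1 b), hψ z hz, End14.W_end P X.ok x.ht _ u
        (((Grp76.hs_iff X.ok).1 x.hα).2 _), End14.W_end P X.ok x.ht 0 u (map_zero _)]
      simp
    refine (congrArg norm ((map_sub adcL _ _).symm.trans (congrArg _ w))).trans_le
      ((ContinuousLinearMap.le_opNorm _ _).trans ?_)
    rw [mul_assoc, mul_assoc]
    exact mul_le_mul_of_nonneg_left ((ContinuousLinearMap.le_opNorm _ _).trans
      (mul_le_mul_of_nonneg_left ((PiLp.norm_apply_le _ b).trans (k hz.2)) (norm_nonneg _)))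
      (norm_nonneg _)
  · obtain ⟨e1, e2, e3, -⟩ := (hl.lit i).at x.ht (hH z hz)
    rw [hψ z hz] at hv
    exact ⟨hv.1, e1 ▸ hv.2.1, hv.2.2.1, fun a => e2 a ▸ hv.2.2.2.1 a, fun s => e3 ▸ hv.2.2.2.2 s⟩
  · have q : ∀ {s}, PS (X.P i).D.F (fun a z => adc (((X.P i).sl o (R + 1) x.t).W a z.1))
        (fun z => ((X.P i).sl o (R + 1) x.t).m.pg z.1) (R + 1) s →
        s ∈ Clr59.parS (X.P i).D ((X.P i).sl o (R + 1) x.t) := fun p =>
      ⟨fun y => (p y).1, fun y => (p y).2.1 ▸ pg_mem _ _, fun k y => (p y).2.2 k⟩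
    obtain ⟨t, ht⟩ := (finrank_eq_one_iff_of_nonzero' (K := ℝ) (⟨s', q p'⟩ : Clr59.parS _ _)
      fun k => n (congrArg Subtype.val k)).1 (Clr59.dz_def.symm.trans hz) ⟨s, q p⟩
    exact ⟨t, (congrArg Subtype.val ht).symm⟩

end Crest.Agent.X212.Nk54
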