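import Crest.Agent.X212.Nk54.Lim
import Crest.Agent.X212.Abel74.Iso

/-!
# Row 212, NT-KER (helper54), file 2: decaying deformations that keep a reduction vanish
-/

set_option autoImplicit false
set_option linter.unusedSectionVars false
noncomputable section
open Set Filter Topology MeasureTheory
open scoped ContDiff Manifold InnerProductSpace

namespace Crest.Agent.X212.Nk54
open An Sob92 Wz78 Rdc90 Kah60 Cyf70 Nd18 Pj41 Map77 Dfl49

variable {E : Type} [NormedAddCommGroup E] [NormedSpace ℝ E] [FiniteDimensional ℝ E]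
  [MeasurableSpace E] [BorelSpace E]
  {HM : Type} [TopologicalSpace HM] {I : ModelWithCorners ℝ E HM} [I.Boundaryless]
  {M : Type} [TopologicalSpace M] [ChartedSpace HM M] [IsManifold I ∞ M] [MeasurableSpace M]
  [T2Space M] [BorelSpace M] [SecondCountableTopology M]
  {E3 : Type} [NormedAddCommGroup E3] [NormedSpace ℝ E3] [FiniteDimensional ℝ E3]
  [MeasurableSpace E3] [BorelSpace E3]
  {H3 : Type} [TopologicalSpace H3] {I3 : ModelWithCorners ℝ E3 H3} [I3.Boundaryless]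
  {Y : Type} [TopologicalSpace Y] [ChartedSpace H3 Y] [IsManifold I3 ∞ Y] [T2Space Y]
  [MeasurableSpace Y] [BorelSpace Y] [SecondCountableTopology Y] [CompactSpace Y]
  {κ : Type} [Fintype κ] {lam : Type} [Fintype lam] {D : YD I3 Y κ lam}
  {B : Base M (Option κ) lam} {G : Geo I M (Option κ) lam} {K : Nk D B G} {T T' δ C : ℝ} {S : Set M}
  {m : Md M (Option κ) lam} {W : m.Cn}

theorem te_one (T : ℝ) : Te 1 T = Ioi T := by ext; simp [Te]

theorem one_mono (h : One K 1 T S) (k : T ≤ T') : One K 1 T' S :=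
  ⟨h.sg, h.op, fun _ e => h.J (k.trans_lt e), fun _ e => h.sub (k.trans_lt e), h.cpt⟩

theorem sur_end [PreconnectedSpace Y] [Nonempty Y] (h : One K 1 T S) (sc : ∀ x ∈ S, Sur {x} S) :
    Sur (K.tm ⁻¹' Te 1 T) S := by
  refine sur_of sc ?_ h.sub ?_ <;> rw [← nk_image K h.J]
  · exact (isPreconnected_univ.prod (ord_Te 1 T).isPreconnected).image _
      (K.ψ.continuousOn.mono fun x hx => K.mem_src.2 (h.J hx.2))
  · exact (univ_nonempty.prod ⟨T + 1, by simp [Te]⟩).image _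

variable (hB : B.OK I) (hG : G.OK B) (H : m.OK I B) (c : m.IsConn B G W)
include hB H

theorem ad_ad {x : M} {ξ v : m.A} (hξ : ξ ∈ m.gS x) (s : opL ξ * opL ξ = -m.p x) (hv : v ∈ m.gS x) :
    (-(1 / 4) : ℝ) • adc (opL ξ) (adc (opL ξ) v) = v - (⟪ξ, v⟫_ℝ / 16) • ξ := by
  have e := congrArg (opL ξ * ·) (Abel74.g_anti hB H hξ hv)
  simp only [mul_add, ← mul_assoc, s, neg_mul, g_p hv, mul_smul_comm, g_p' H hξ] at e
  refine opL_inj ?_
  simp only [map_smul, map_sub, opL_adc, mul_sub, sub_mul, ← mul_assoc, s, neg_mul, g_p hv]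
  rw [mul_assoc (opL v), s, mul_neg, g_p' H hv, eq_add_of_neg_add_eq e]
  module

include hG c

theorem asd_form (hS : IsOpen S) {α : M → Fm (Option κ) m.A} (sα : ∀ x ∈ S, SA I α x)
    (pα : ∀ x ∈ S, m.p1 B x (α x) = α x) {x : M} (hx : x ∈ S)
    (asd : m.p2 B x (WithLp.toLp 2 fun s =>
      ed I G.F.e G.F.c (m.adW W) (fun a y => α y a) s.1 s.2 x) = 0) (j k : Option κ) :
    ∑ l, ∑ n, B.o j k l n x • ed I G.F.e G.F.c (m.adW W) (fun a y => α y a) l n x =
      (-2 : ℝ) • ed I G.F.e G.F.c (m.adW W) (fun a y => α y a) j k x := by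
  have L := lc_gam G.F
  have fr := frm G.F
  have sg := Std94.sm_pg hB H
  have cn : Con I G.F.P (m.adW W) := hG.P ▸ con_adW c
  have s1 : ∀ a, ∀ x ∈ S, SA I (fun y => α y a) x := fun a x hx => (sα x hx).clm (pj _ a)
  have q1 : ∀ a, ∀ x ∈ S, m.pg x (α x a) = α x a := fun a x hx =>
    pα x hx ▸ (bdOf_ok hB H).g_p1 x _ a
  have p1 : ∀ x ∈ S, ∀ a, ∑ b, G.F.P a b x • α x b = α x a := fun x hx a => by
    rw [hG.P, ← pα x hx]; exact (bdOf_ok hB H).P_p1 x _ a
  have ev := hS.eventually_mem hx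
  have g1 : ∀ a b, m.pg x (nab I G.F.e (m.adW W) a (fun y => α y b) x) =
      nab I G.F.e (m.adW W) a (fun y => α y b) x := fun a b => by
    rw [← pg_nab H c sg a (s1 b x hx)]
    exact nab_congr a (ev.mono fun y hy => q1 b y hy)
  have g2 : ∀ s : Option κ × Option κ,
      m.pg x (ed I G.F.e G.F.c (m.adW W) (fun a y => α y a) s.1 s.2 x) =
      ed I G.F.e G.F.c (m.adW W) (fun a y => α y a) s.1 s.2 x := fun s => by
    simp only [ed, map_sub, map_sum, map_smul, g1, q1 _ x hx]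
  have a2 := a2_fix (B := B) (x := x)
    (T := fun a b => ed I G.F.e G.F.c (m.adW W) (fun a y => α y a) a b x)
    (fun a b => ed_anti L (p1 x hx) a b) (fun a b => hG.P ▸ ed_proj L fr (sep G.F) cn
      (s1 · x hx) (ev.mono p1) a b) (j, k)
  have e := congrArg (fun η : Fm (Option κ × Option κ) m.A => η (j, k)) asd
  simp only [Md.p2, Wz78.idx_apply, g2, Base.sd, div_eq_inv_mul, mul_smul, ← Finset.smul_sum,
    add_smul, Finset.sum_add_distrib, a2, PiLp.zero_apply] at e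
  simp only [Base.st, div_eq_inv_mul, mul_smul, ← Finset.smul_sum, Fintype.sum_prod_type] at e
  linear_combination (norm := module) (4 : ℝ) • e

variable (h : One K 1 T S) (hs : Sur (K.tm ⁻¹' Te 1 T) S) {ξ : M → m.A}
  (R : Abel74.RedOn G.F m W S ξ) {α : M → Fm (Option κ) m.A} (sα : ∀ x ∈ S, SA I α x)
  (pα : ∀ x ∈ S, m.p1 B x (α x) = α x) (hδ : 0 < δ) (d : Dcy K 1 T δ C α)
include h hs R sα pα hδ d

/-- the part along the reduction is exact -/
theorem prim_par (asd : ∀ x ∈ S, m.p2 B x (WithLp.toLp 2 fun s =>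
      ed I G.F.e G.F.c (m.adW W) (fun a y => α y a) s.1 s.2 x) = 0) :
    ∃ (g : M → ℝ) (C' : ℝ), (∀ x ∈ S, SA I g x ∧ ∀ a, dv I (G.F.e a) g x = ⟪ξ x, α x a⟫_ℝ) ∧
      Dcy K 1 T δ C' g := by
  have := openPos G.F.toPre
  have s0 : ∀ a, ∀ x ∈ S, SA I (fun y => α y a) x := fun a x hx => (sα x hx).clm (pj _ a)
  have s1 : ∀ a, ∀ x ∈ S, SA I (fun y => ⟪ξ y, α y a⟫_ℝ) x := fun a x hx =>
    (R.sm x hx).inner (s0 a x hx)
  have p1 : ∀ x ∈ S, ∀ a, ∑ b, G.F.P a b x • ⟪ξ x, α x b⟫_ℝ = ⟪ξ x, α x a⟫_ℝ := fun x hx a => by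
    have : ∑ b, G.F.P a b x • α x b = α x a := by
      rw [hG.P, ← pα x hx]; exact (bdOf_ok hB H).P_p1 x _ a
    simp only [← this, inner_sum, real_inner_smul_right, smul_eq_mul]
  have e1 : ∀ x ∈ S, ∀ a b, ed I G.F.e G.F.c (fun _ _ => 0) (fun a y => ⟪ξ y, α y a⟫_ℝ) a b x =
      ⟪ξ x, ed I G.F.e G.F.c (m.adW W) (fun a y => α y a) a b x⟫_ℝ := fun x hx a b => by
    have k := fun a b => dv_inner (e := G.F.e) a (adW_skw c a x) (R.sm x hx) (s0 b x hx)
    simp only [R.par x hx, inner_zero_left, zero_add] at k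
    simp only [ed, nab_zero, inner_sub_right, inner_sum, real_inner_smul_right, smul_eq_mul, k]
  have d1 : ∀ x, T < 1 * K.tm x → ∀ a, ‖⟪ξ x, α x a⟫_ℝ‖ ≤ 4 * ‖α x‖ := fun x hx a =>
    (norm_inner_le_norm _ _).trans (mul_le_mul (by
      nlinarith [Abel74.norm_sq H (R.mem x (h.sub hx)) (R.sq x (h.sub hx)), norm_nonneg (ξ x)])
      (PiLp.norm_apply_le _ a) (norm_nonneg _) (by norm_num))
  have cn : Con I G.F.P (fun _ _ => (0 : ℝ →L[ℝ] ℝ)) :=
    ⟨fun _ _ => contMDiffAt_const, fun _ _ => by simp⟩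
  obtain ⟨χ, k1, k2⟩ := h.small (f := fun x => (WithLp.toLp 2 fun a => ⟪ξ x, α x a⟫_ℝ :
      EuclideanSpace ℝ (Option κ))) (C := Fintype.card (Option κ) * (4 * C))
    ((PiLp.continuous_toLp 2 _).comp_continuousOn (continuousOn_pi.2 fun a x hx =>
      (s1 a x hx).continuousAt.continuousWithinAt)) hδ fun x hx => by
      refine (EuclideanSpace.norm_eq _).trans_le ((Real.sqrt_le_iff.2 ⟨by positivity, ?_⟩).trans
        (b := ∑ a, ‖⟪ξ x, α x a⟫_ℝ‖) ?_)
      · exact Finset.sum_sq_le_sq_sum_of_nonneg fun _ _ => norm_nonneg _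
      · refine (Finset.sum_le_card_nsmul _ _ _ fun a _ => d1 x hx a).trans ?_
        rw [nsmul_eq_mul, Finset.card_univ, mul_assoc, mul_assoc]
        gcongr
        exact d x hx
  have cl : Clo G.F S (fun _ _ => 0) (fun _ => 1) fun a y => ⟪ξ y, α y a⟫_ℝ :=
    ⟨⟨h.op, fun a x _ => cn.sm a x, fun a x _ => cn.proj a x, fun x _ => contMDiffAt_const,
      fun a x _ => by simp [nabE], fun a b x _ => by simp [curv_zero]⟩, s1, fun a x hx => p1 x hx a,
      fun _ _ _ => rfl, fun a b x hx => closed_of_asd (riem_of_vol hG.vol) cn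
        (fun _ _ _ _ => by simp) hB.so (hG.P ▸ vol_of hB) h.op k1 s1 p1
        (fun x hx a b j => by simp [curv_zero]) (fun x hx j k => by
          have := congrArg (⟪ξ x, ·⟫_ℝ) (asd_form hB hG H c h.op sα pα hx (asd x hx) j k)
          simpa only [e1 x hx, inner_sum, real_inner_smul_right, smul_eq_mul] using this)
        (by simpa only [EuclideanSpace.norm_sq_eq] using k2) hx a b⟩
  obtain ⟨g, h1, h2⟩ := h.prim cl hs (fun _ _ _ _ _ => by simp) hδ (C := 4 * C) fun a x hx =>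
    (d1 x hx a).trans (by linarith [d x hx])
  exact ⟨g, _, fun x hx => ⟨(h1 x hx).sm, fun a => by simpa [nab] using (h1 x hx).eq a⟩, h2⟩

/-- **decaying gauge fixed deformations along which the reduction deforms vanish** -/
theorem geo {A : Option κ → Y × ℝ → CL m.A m.A} {Q : Y × ℝ → CL m.A m.A}
    (as : Asy D.F A (fun a z => m.adW W a (K.ψ z)) Q T δ)
    (hQ : ∀ z ∈ (univ : Set Y) ×ˢ Ioi T, ∀ v ∈ m.gS (K.ψ z), Q z v = v)
    (one : ∀ s s', PS D.F A Q (T + 1) s → PS D.F A Q (T + 1) s' → s' ≠ 0 → ∃ c : ℝ, s = c • s')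
    (asd : ∀ x ∈ S, m.p2 B x (WithLp.toLp 2 fun s =>
      ed I G.F.e G.F.c (m.adW W) (fun a y => α y a) s.1 s.2 x) = 0) {F : Fr I M (Option κ)}
    (he : F.e = G.F.e) (row : ∀ x ∈ S, dv1 I F.e F.dv (m.adW W) (fun a y => α y a) x = 0)
    {η : M → m.A} (hη : ∀ x ∈ S, SA I η x ∧ η x ∈ m.gS x ∧
      ∀ i, nab I G.F.e (m.adW W) i η x + adc (opL (α x i)) (ξ x) = 0) : ∀ x ∈ S, α x = 0 := by
  have := openPos F.toPre
  obtain ⟨g, C₁, g1, g2⟩ := prim_par hB hG H c h hs R sα pα hδ d asd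
  have n4 : ∀ x ∈ S, ‖ξ x‖ ^ 2 = 16 := fun x hx => Abel74.norm_sq H (R.mem x hx) (R.sq x hx)
  have q1 : ∀ a, ∀ x ∈ S, α x a ∈ m.gS x := fun a x hx =>
    pα x hx ▸ (bdOf_ok hB H).g_p1 x _ a ▸ pg_mem x _
  have sT : ∀ x ∈ S, SA I (fun y => adc (opL (ξ y))) x := fun x hx =>
    SA.clm adcL (SA.clm opL (R.sm x hx))
  let ζ : M → m.A := fun y => (-(1 / 4) : ℝ) • adc (opL (ξ y)) (η y)
  have s1 : ∀ x ∈ S, SA I ζ x := fun x hx =>
    SA.smul contMDiffAt_const ((sT x hx).app (hη x hx).1)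
  have n1 : ∀ x ∈ S, ∀ a, nab I G.F.e (m.adW W) a ζ x = α x a - (⟪ξ x, α x a⟫_ℝ / 16) • ξ x :=
    fun x hx a => by
      have e : nabE I G.F.e (m.adW W) a (fun y => adc (opL (ξ y))) x = 0 := by
        have := congrArg adcL ((opL_nab (e := G.F.e) (W := W) a (R.sm x hx)).trans
          (by rw [R.par x hx, map_zero]))
        rw [nabE, map_add, ← dv_clm adcL (SA.clm opL (R.sm x hx)).md, map_zero] at this
        exact (congrArg _ (adc_lie _ _).symm).trans this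
      rw [nab_csmul a _ ((sT x hx).app (hη x hx).1), nab_app' a (sT x hx) (hη x hx).1, e,
        eq_neg_of_add_eq_zero_left ((hη x hx).2.2 a), ← ad_ad hB H (R.mem x hx) (R.sq x hx)
          (q1 a x hx)]
      simp only [zero_apply, zero_add, adc_apply (opL (α x a)), adc_apply (opL (ξ x)) (α x a),
        ← map_neg, neg_sub]
  have mp := nk_maps (K := K) (te_one T ▸ h.J) (te_one T ▸ h.sub)
  obtain ⟨C₂, z2⟩ := as.orth (ξ := fun z => ξ (K.ψ z)) (ζ := fun z => ζ (K.ψ z)) (C := 2 * C) one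
    (fun z hz => ⟨⟨K.rel.sm (mp hz).1 (R.sm _ (mp hz).2), hQ z hz _ (R.mem _ (mp hz).2)⟩,
      n4 _ (mp hz).2, fun a => (K.rel.nab (mp hz).1 a rfl (.of_forall fun _ => rfl)).trans
        (R.par _ (mp hz).2 a)⟩)
    (fun z hz => ⟨⟨K.rel.sm (mp hz).1 (s1 _ (mp hz).2), hQ z hz _ (Submodule.smul_mem _ _
      (adc_mem (R.mem _ (mp hz).2) (hη _ (mp hz).2).2.1))⟩, by
        rw [real_inner_smul_left, adc_skw (g_skw (R.mem _ (mp hz).2)), adc_apply, sub_self]
        simp⟩)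
    fun a z hz => by
      have k := d (K.ψ z)
      rw [K.tm_ψ z (mp hz).1, one_mul] at k
      have := norm_inner_le_norm (𝕜 := ℝ) (ξ (K.ψ z)) (α (K.ψ z) a)
      have n : ‖ξ (K.ψ z)‖ = 4 := by nlinarith [n4 _ (mp hz).2, norm_nonneg (ξ (K.ψ z))]
      refine (congrArg norm ((K.rel.nab (mp hz).1 a rfl (.of_forall fun _ => rfl)).trans
        (n1 _ (mp hz).2 a))).trans_le ((norm_sub_le _ _).trans ?_)
      rw [n] at this
      rw [norm_smul, norm_div, n, Real.norm_ofNat]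
      linarith [k hz.2, PiLp.norm_apply_le (α (K.ψ z)) a]
  have z3 : Dcy K 1 T δ (C₂ + C₁ / 4) fun y => ζ y + (g y / 16) • ξ y := fun x hx => by
    have tg : x ∈ K.ψ.target := K.tgt ▸ h.J hx
    have k := z2 (K.ψ.symm x) ⟨trivial, (K.snd_symm tg).symm ▸ te_one T ▸ hx⟩
    have n : ‖ξ x‖ = 4 := by nlinarith [n4 _ (h.sub hx), norm_nonneg (ξ x)]
    rw [K.ψ.right_inv tg, K.snd_symm tg] at k
    have := g2 x hx
    refine (norm_add_le _ _).trans ?_
    rw [one_mul] at this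
    rw [norm_smul (g x / 16), norm_div, n, one_mul, Real.norm_ofNat]
    linarith
  have s2 : ∀ x ∈ S, SA I (fun y => g y / 16) x := fun x hx =>
    SA.clm ((1 / 16 : ℝ) • ContinuousLinearMap.id ℝ ℝ) (g1 x hx).1 |>.congr_of_eventuallyEq
      (.of_forall fun y => by simp; ring)
  refine fun x hx => fm_ext fun a => zero_of_prim (F := F) (α := fun a y => α y a)
    (fun a x _ => (con_adW c).sm a x) (fun a x _ => adW_skw c a x) h.op
    (ξ := fun y => ζ y + (g y / 16) • ξ y) (fun x hx => (s1 x hx).add ((s2 x hx).smul (R.sm x hx))) (fun x hx a => ?_) (w := fun _ => 0)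
    (fun _ _ => contMDiffAt_const) (fun x hx => by simp [row x hx, Pre.D_def]) (h.cpt_of hδ z3) hx a
  have e : dv I (G.F.e a) (fun y => g y / 16) x = ⟪ξ x, α x a⟫_ℝ / 16 := by
    rw [← (g1 x hx).2 a]
    simpa [div_eq_inv_mul] using dv_clm (e := G.F.e a)
      ((1 / 16 : ℝ) • ContinuousLinearMap.id ℝ ℝ) (g1 x hx).1.md
  rw [he, nab_add a (s1 x hx) ((s2 x hx).smul (R.sm x hx)), n1 x hx, nab_smul a (s2 x hx) (R.sm x hx),
    R.par x hx, e]
  simp

end Crest.Agent.X212.Nk54
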