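import Crest.Agent.X212.Dfl49.Ker

/-!
# Row 212, NT-KER (helper54), file 1: asymptotically parallel sections on an end
-/

set_option autoImplicit false
set_option linter.unusedSectionVars false
noncomputable section
open Set Filter Topology MeasureTheory
open scoped ContDiff Manifold InnerProductSpace

namespace Crest.Agent.X212.Nk54
open An Sob92 Wz78 Rdc90 Cyf70 Dfl49

theorem sur_of {X : Type} [TopologicalSpace X] {O S : Set X} (h : ∀ x ∈ S, Sur {x} S)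
    (hO : IsPreconnected O) (k : O ⊆ S) (ne : O.Nonempty) : Sur O S := fun F Gd L s hs => by
  obtain ⟨x, hx⟩ := ne
  obtain ⟨s', h1, h2⟩ := h x (k hx) F Gd L s fun y hy => hs y (hy ▸ hx)
  exact ⟨s', h1, L.eqOn hO k (fun y hy => h1 y (k hy)) hs hx (h2 rfl)⟩

variable {E : Type} [NormedAddCommGroup E] [NormedSpace ℝ E] [FiniteDimensional ℝ E]
  [MeasurableSpace E] [BorelSpace E]
  {HM : Type} [TopologicalSpace HM] {I : ModelWithCorners ℝ E HM} [I.Boundaryless]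
  {M : Type} [TopologicalSpace M] [ChartedSpace HM M] [IsManifold I ∞ M]
  [MeasurableSpace M] {ι : Type} [Fintype ι]
  {V : Type} [NormedAddCommGroup V] [InnerProductSpace ℝ V] [FiniteDimensional ℝ V]

/-- exact forms are closed -/
theorem clo_nab {F : Fr I M ι} {S : Set M} {A : ι → M → V →L[ℝ] V} {Q : M → V →L[ℝ] V} {u : M → V}
    (h : Flt F S A Q) (su : ∀ x ∈ S, SA I u x ∧ Q x (u x) = u x) :
    Clo F S A Q fun a => nab I F.e A a u := by
  have fr := frm F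
  refine ⟨h, fun a x hx => fr.sN (h.sA · x hx) a (su x hx).1, fun a x hx => ?_, fun a x hx => ?_,
    fun a b x hx => ?_⟩
  · simp only [nab, smul_add, Finset.sum_add_distrib, fr.projD]
    rw [← h.pA a x hx, _root_.sum_apply]
    rfl
  · have e := nab_app' (e := F.e) (A := A) a (h.sQ x hx) (su x hx).1
    have z := congrArg (fun T : V →L[ℝ] V => T (u x)) (h.nQ a x hx)
    simp only [mul_apply_eq_comp, (su x hx).2, zero_apply] at z
    rw [nab_congr a (v := u) (mem_of_superset (h.op.mem_nhds hx) fun y hy => (su y hy).2), z,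
      zero_add] at e
    exact e.symm
  · have z := congrArg (fun T : V →L[ℝ] V => T (u x)) (h.cQ a b x hx)
    simp only [mul_apply_eq_comp, (su x hx).2, zero_apply] at z
    exact (fr.nab_comm (h.sA · x hx) a b (su x hx).1).trans z

variable [T2Space M] [BorelSpace M] [SecondCountableTopology M] [CompactSpace M] {F : Fr I M ι}
  {A A' : Option ι → M × ℝ → V →L[ℝ] V} {Q : M × ℝ → V →L[ℝ] V} {u ξ ζ : M × ℝ → V} {T δ C : ℝ}

theorem der (hδ : 0 < δ) (C t : ℝ) :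
    HasDerivAt (fun s => -(C / δ) * Real.exp (-δ * s)) (C * Real.exp (-δ * t)) t := by
  refine (((hasDerivAt_id' t).const_mul (-δ)).exp.const_mul (-(C / δ))).congr_deriv ?_
  field_simp

/-- parallel limits -/
theorem lim_par (h : Flt (cyl F) (univ ×ˢ Ioi T) A Q) (sk : ∀ a x, Skew (A a x)) (hδ : 0 < δ)
    (su : ∀ x ∈ (univ : Set M) ×ˢ Ioi T, SA (IC I) u x ∧ Q x (u x) = u x)
    (d : ∀ a, ∀ x ∈ (univ : Set M) ×ˢ Ioi T,
      ‖nab (IC I) (cyl F).e A a u x‖ ≤ C * Real.exp (-δ * x.2)) :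
    ∃ v, ∀ x ∈ (univ : Set M) ×ˢ Ioi T, PA (cyl F) A Q v x ∧
      ‖u x - v x‖ ≤ |C| / δ * Real.exp (-δ * x.2) := by
  have t : Tendsto (fun n : ℕ => Real.exp (-δ * (T + 1 + n))) atTop (𝓝 0) :=
    Real.tendsto_exp_atBot.comp ((tendsto_atTop_add_const_left _ _
      tendsto_natCast_atTop_atTop).const_mul_atTop_of_neg (neg_lt_zero.2 hδ))
  obtain ⟨w, hw⟩ := (clo_nab h su).prim isOpen_Ioi ordConnected_Ioi (fun a x _ => sk a x)
    (fun t _ => der hδ C t) d (τ := fun n => T + 1 + n)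
    (fun n => by rw [mem_Ioi]; linarith [(Nat.cast_nonneg n : (0 : ℝ) ≤ n)])
    (by simpa using t.const_mul C) (by simpa using t.const_mul (-(C / δ)))
  refine ⟨fun x => u x - w x, fun x hx => ⟨⟨(su x hx).1.sub (hw x hx).1.sm, by
    rw [map_sub, (su x hx).2, (hw x hx).1.mem], fun a => by
      rw [nab_sub a (su x hx).1 (hw x hx).1.sm, (hw x hx).1.eq, sub_self]⟩, ?_⟩⟩
  rw [sub_sub_cancel]
  refine (hw x hx).2.trans_eq ?_
  rw [abs_mul, abs_neg, abs_div, abs_of_pos hδ, abs_of_pos (Real.exp_pos _)]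

/-- sections with decaying vertical derivative are bounded -/
theorem bdd (sk : ∀ x ∈ (univ : Set M) ×ˢ Ioi T, Skew (A' none x)) (hδ : 0 < δ)
    (su : ∀ x ∈ (univ : Set M) ×ˢ Ioi T, SA (IC I) u x)
    (d : ∀ x ∈ (univ : Set M) ×ˢ Ioi T,
      ‖nab (IC I) (cyl F).e A' none u x‖ ≤ C * Real.exp (-δ * x.2)) :
    ∃ b, ∀ x ∈ (univ : Set M) ×ˢ Ioi T, ‖u x‖ ≤ b := by
  have m : T + 1 ∈ Ioi T := lt_add_one T
  obtain ⟨b, hb⟩ := isCompact_univ.exists_bound_of_continuousOn (f := fun y => u (y, T + 1))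
    fun y _ => ((su _ ⟨trivial, m⟩).continuousAt.comp (by fun_prop)).continuousWithinAt
  have k : ∀ s ∈ Ioi T, |-(C / δ) * Real.exp (-δ * s)| ≤ |C / δ| * Real.exp (-δ * T) :=
    fun s hs => by
      rw [abs_mul, abs_neg, abs_of_pos (Real.exp_pos _)]
      exact mul_le_mul_of_nonneg_left (Real.exp_le_exp.2 (by nlinarith [mem_Ioi.1 hs]))
        (abs_nonneg _)
  refine ⟨b + 2 * (|C / δ| * Real.exp (-δ * T)), fun x hx => ?_⟩
  have := vert (F := F) (A := A') (ξ := u) ordConnected_Ioi (fun t _ => der hδ C t) (y := x.1)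
    (fun t ht => ⟨su _ ⟨trivial, ht⟩, sk _ ⟨trivial, ht⟩, d (x.1, t) ⟨trivial, ht⟩⟩) m hx.2
  linarith [abs_sub (-(C / δ) * Real.exp (-δ * x.2)) (-(C / δ) * Real.exp (-δ * (T + 1))),
    k _ hx.2, k _ m, hb x.1 trivial]

variable (F A Q) in
/-- parallel sections over the slice at the time `t` -/
def PS (t : ℝ) (s : M → V) : Prop := ∀ y, SA I s y ∧ Q (y, t) (s y) = s y ∧
  ∀ k, nab I F.e (fun k y => A (some k) (y, t)) k s y = 0

variable (F A A' Q T δ) in
/-- `A'` is asymptotic to the flat temporal connection `A` -/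
structure Asy : Prop where
  fl : Flt (cyl F) (univ ×ˢ Ioi T) A Q
  sk : ∀ a x, Skew (A a x)
  tmp : ∀ x, A none x = 0
  sk' : ∀ x ∈ (univ : Set M) ×ˢ Ioi T, Skew (A' none x)
  d0 : 0 < δ
  dec : ∃ C, ∀ a, ∀ x ∈ (univ : Set M) ×ˢ Ioi T, ‖A' a x - A a x‖ ≤ C * Real.exp (-δ * x.2)

namespace Asy
variable (h : Asy F A A' Q T δ)
include h

theorem lim (su : ∀ x ∈ (univ : Set M) ×ˢ Ioi T, SA (IC I) u x ∧ Q x (u x) = u x)
    (d : ∀ a, ∀ x ∈ (univ : Set M) ×ˢ Ioi T,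
      ‖nab (IC I) (cyl F).e A' a u x‖ ≤ C * Real.exp (-δ * x.2)) :
    ∃ s C', PS F A Q (T + 1) s ∧
      ∀ x ∈ (univ : Set M) ×ˢ Ioi T, ‖u x - s x.1‖ ≤ C' * Real.exp (-δ * x.2) := by
  have m : T + 1 ∈ Ioi T := lt_add_one T
  obtain ⟨b, hb⟩ := bdd h.sk' h.d0 (fun x hx => (su x hx).1) (d none)
  obtain ⟨c, hc⟩ := h.dec
  obtain ⟨v, hv⟩ := lim_par h.fl h.sk h.d0 su (C := C + |c| * |b|) fun a x hx => by
    have e : nab (IC I) (cyl F).e A a u x =
        nab (IC I) (cyl F).e A' a u x - (A' a x - A a x) (u x) := by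
      simp only [nab, sub_apply]; abel
    have := ((A' a x - A a x).le_opNorm (u x)).trans (mul_le_mul ((hc a x hx).trans
      (mul_le_mul_of_nonneg_right (le_abs_self c) (Real.exp_pos _).le))
      ((hb x hx).trans (le_abs_self b)) (norm_nonneg _) (by positivity))
    rw [e]
    linarith [norm_sub_le (nab (IC I) (cyl F).e A' a u x) ((A' a x - A a x) (u x)), d a x hx]
  refine ⟨fun y => v (y, T + 1), _, fun y => ?_, fun x hx => (congrArg (‖u x - ·‖) ?_).trans_le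
    (hv x hx).2⟩
  · have k := (hv (y, T + 1) ⟨trivial, m⟩).1
    exact ⟨ContMDiffAt.comp y k.sm (contMDiffAt_id.prodMk contMDiffAt_const), k.mem, fun a =>
      (congrArg (· + _) (D_some_at F.toPre k.sm.md a)).symm.trans (k.par (some a))⟩
  · refine isOpen_Ioi.is_const_of_deriv_eq_zero (𝕜 := ℝ) (f := fun s => v (x.1, s))
      isPreconnected_Ioi (fun s hs => (diff_slice_snd (x := (x.1, s))
        (hv _ ⟨trivial, hs⟩).1.sm.md).differentiableWithinAt) (fun s hs => ?_) m hx.2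
    have k := (hv (x.1, s) ⟨trivial, hs⟩).1
    have := k.par none
    simp only [nab, h.tmp, zero_apply, add_zero] at this
    exact (D_none_at F.toPre k.sm.md).symm.trans this

/-- **asymptotically parallel sections orthogonal to the reduction decay** -/
theorem orth (one : ∀ s s', PS F A Q (T + 1) s → PS F A Q (T + 1) s' → s' ≠ 0 → ∃ c : ℝ, s = c • s')
    (sξ : ∀ x ∈ (univ : Set M) ×ˢ Ioi T, (SA (IC I) ξ x ∧ Q x (ξ x) = ξ x) ∧ ‖ξ x‖ ^ 2 = 16 ∧
      ∀ a, nab (IC I) (cyl F).e A' a ξ x = 0)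
    (sζ : ∀ x ∈ (univ : Set M) ×ˢ Ioi T, (SA (IC I) ζ x ∧ Q x (ζ x) = ζ x) ∧ ⟪ζ x, ξ x⟫_ℝ = 0)
    (d : ∀ a, ∀ x ∈ (univ : Set M) ×ˢ Ioi T,
      ‖nab (IC I) (cyl F).e A' a ζ x‖ ≤ C * Real.exp (-δ * x.2)) :
    ∃ C', ∀ x ∈ (univ : Set M) ×ˢ Ioi T, ‖ζ x‖ ≤ C' * Real.exp (-δ * x.2) := by
  obtain ⟨s, c, p, e⟩ := h.lim (fun x hx => (sζ x hx).1) d
  obtain ⟨s', c', p', e'⟩ := h.lim (C := 0) (fun x hx => (sξ x hx).1) fun a x hx => by
    simp [(sξ x hx).2.2]
  have t : ∀ {u : M × ℝ → V} {s : M → V} {c : ℝ}, (∀ x ∈ (univ : Set M) ×ˢ Ioi T,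
      ‖u x - s x.1‖ ≤ c * Real.exp (-δ * x.2)) → ∀ y, Tendsto (fun t => u (y, t)) atTop (𝓝 (s y)) :=
    fun {u s c} e y => tendsto_iff_norm_sub_tendsto_zero.2 (squeeze_zero'
      (.of_forall fun _ => norm_nonneg _) ((eventually_gt_atTop T).mono fun t ht =>
        e (y, t) ⟨trivial, ht⟩) (by simpa using (Real.tendsto_exp_atBot.comp
          (tendsto_id.const_mul_atTop_of_neg (neg_lt_zero.2 h.d0))).const_mul c))
  refine ⟨c, fun x hx => (congrArg norm ?_).trans_le (e x hx)⟩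
  have n : ‖s' x.1‖ ^ 2 = 16 := tendsto_nhds_unique_of_eventuallyEq ((t e' x.1).norm.pow 2)
    tendsto_const_nhds ((eventually_gt_atTop T).mono fun t ht => (sξ (x.1, t) ⟨trivial, ht⟩).2.1)
  have i : ⟪s x.1, s' x.1⟫_ℝ = 0 := tendsto_nhds_unique_of_eventuallyEq
    ((t e x.1).inner (t e' x.1)) tendsto_const_nhds
    ((eventually_gt_atTop T).mono fun t ht => (sζ (x.1, t) ⟨trivial, ht⟩).2)
  obtain ⟨r, rfl⟩ := one s s' p p' fun k => by simp [k] at n
  simp only [Pi.smul_apply, real_inner_smul_left, real_inner_self_eq_norm_sq, n] at i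
  simp [show r = 0 by linarith]

end Asy

end Crest.Agent.X212.Nk54
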